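import Vale.Agent.Lib.P154Q4.I025.Tree
import Vale.Agent.Lib.P154Q4.Final4

/-!
# The certificate
-/

namespace Vale.Agent.Lib.P154Q4.I025

open Filter Topology

/-- A tetrahedron. -/
def PT0 : Tet := ⟨[[18, -6, -6, -6], [6, 6, -6, -6], [2, 2, 2, -6], [9, -3, -3, -3]], 6⟩
/-- A tetrahedron. -/
def PT1 : Tet := ⟨[[9, -3, -3, -3], [6, 6, -6, -6], [2, 2, 2, -6], [0, 0, 0, 0]], 6⟩
/-- A tetrahedron. -/
def PT2 : Tet := ⟨[[18, -6, -6, -6], [6, 6, -6, -6], [10, -2, -2, -6], [9, -3, -3, -3]], 6⟩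
/-- A tetrahedron. -/
def PT3 : Tet := ⟨[[10, -2, -2, -6], [6, 6, -6, -6], [2, 2, 2, -6], [9, -3, -3, -3]], 6⟩
/-- A tetrahedron. -/
def PT4 : Tet := ⟨[[18, -6, -6, -6], [12, 0, -6, -6], [10, -2, -2, -6], [9, -3, -3, -3]], 6⟩
/-- A tetrahedron. -/
def PT5 : Tet := ⟨[[12, 0, -6, -6], [6, 6, -6, -6], [10, -2, -2, -6], [9, -3, -3, -3]], 6⟩
/-- A tetrahedron. -/
def PT6 : Tet := ⟨[[24, 0, -12, -12], [12, 12, -12, -12], [20, -4, -4, -12], [15, 3, -9, -9]], 12⟩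
/-- A tetrahedron. -/
def PT7 : Tet := ⟨[[24, 0, -12, -12], [15, 3, -9, -9], [20, -4, -4, -12], [18, -6, -6, -6]], 12⟩
/-- A tetrahedron. -/
def PT8 : Tet := ⟨[[24, 0, -12, -12], [12, 12, -12, -12], [16, 4, -8, -12], [15, 3, -9, -9]], 12⟩
/-- A tetrahedron. -/
def PT9 : Tet := ⟨[[24, 0, -12, -12], [16, 4, -8, -12], [20, -4, -4, -12], [15, 3, -9, -9]], 12⟩
/-- A tetrahedron. -/
def PT10 : Tet := ⟨[[24, 0, -12, -12], [18, 6, -12, -12], [16, 4, -8, -12], [15, 3, -9, -9]], 12⟩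
/-- A tetrahedron. -/
def PT11 : Tet := ⟨[[18, 6, -12, -12], [12, 12, -12, -12], [16, 4, -8, -12], [15, 3, -9, -9]], 12⟩

theorem pos_G0 : PosOn (rootB 1 4) GI :=
  (pos_leaf (T := (rootB 1 4)) (n := 8) (K := 3) (P := GI) (by decide +kernel))

theorem pos_v0 : PosOn (rootB 1 4) vI :=
  (pos_leaf (T := (rootB 1 4)) (n := 8) (K := 3) (P := vI) (by decide +kernel))

theorem pos_H0 : PosOn (rootB 1 1) HI :=
  (pos_leaf (T := (rootB 1 1)) (n := 8) (K := 3) (P := HI) (by decide +kernel))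

theorem pos_w0 : PosOn (rootB 1 1) wI :=
  (pos_split (T := (rootB 1 1)) (L := PT0) (R := PT1) (e0 := 0) (e1 := 3) (P := wI) (by decide +kernel)
    (pos_split (T := PT0) (L := PT2) (R := PT3) (e0 := 0) (e1 := 2) (P := wI) (by decide +kernel)
    (pos_split (T := PT2) (L := PT4) (R := PT5) (e0 := 0) (e1 := 1) (P := wI) (by decide +kernel)
    (pos_leaf (T := PT4) (n := 8) (K := 3) (P := wI) (by decide +kernel))
    (pos_split (T := PT5) (L := PT6) (R := PT7) (e0 := 1) (e1 := 3) (P := wI) (by decide +kernel)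
    (pos_split (T := PT6) (L := PT8) (R := PT9) (e0 := 1) (e1 := 2) (P := wI) (by decide +kernel)
    (pos_split (T := PT8) (L := PT10) (R := PT11) (e0 := 0) (e1 := 1) (P := wI) (by decide +kernel)
    (pos_leaf (T := PT10) (n := 8) (K := 3) (P := wI) (by decide +kernel))
    (pos_leaf (T := PT11) (n := 8) (K := 3) (P := wI) (by decide +kernel)))
    (pos_leaf (T := PT9) (n := 8) (K := 3) (P := wI) (by decide +kernel)))
    (pos_leaf (T := PT7) (n := 8) (K := 3) (P := wI) (by decide +kernel))))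
    (pos_leaf (T := PT3) (n := 8) (K := 3) (P := wI) (by decide +kernel)))
    (pos_leaf (T := PT1) (n := 8) (K := 3) (P := wI) (by decide +kernel)))

theorem pos_ray0 : PosOn (rootB 1 1) (rayP0 g 2510) :=
  (pos_leaf (T := (rootB 1 1)) (n := 8) (K := 3) (P := (rayP0 g 2510)) (by decide +kernel))

theorem pos_ray1 : PosOn (rootB 1 1) (rayP1 g 2510 1 4) :=
  (pos_leaf (T := (rootB 1 1)) (n := 8) (K := 3) (P := (rayP1 g 2510 1 4)) (by decide +kernel))

/-- The certificate. -/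
theorem cert : Cert g GI HI vI wI 24576 2510 301989 1 4 where
  good := good_root
  hp := by decide
  hpq := by decide
  hCm := by decide
  hC0 := by decide
  hT := by decide
  hCr := by decide +kernel
  hCM := by decide +kernel
  hCI := by decide +kernel
  hpM := rfl
  hpI := rfl
  G0 := pos_G0
  v0 := pos_v0
  H0 := pos_H0
  w0 := pos_w0
  ray0 := pos_ray0
  ray1 := pos_ray1
  vtx := by decide +kernel

/-- **Nonreconstruction for four colours.** -/
theorem tendsto_main {π : ℕ → ℝ} {d lam : ℝ} (hπ0 : ∀ k, 0 ≤ π k) (hπ : HasSum π 1)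
    (hmean : HasSum (fun k : ℕ => (k : ℝ) * π k) d) (k₀ : ℕ) (hπ2 : 0 < π (k₀ + 2)) (h0 : 0 ≤ lam)
    (hl : lam ≤ ((1 : ℤ) : ℝ) / ((4 : ℤ) : ℝ)) (hd : d * lam ^ 2 ≤ 1) :
    Tendsto (Vale.Agent.Lib.P154GW.advantage π 4 lam) atTop (𝓝 0) :=
  tendsto_cert cert (by decide) hπ0 hπ hmean k₀ hπ2 h0 hl hd

end Vale.Agent.Lib.P154Q4.I025
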