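import Vale.Agent.Lib.P154Q4.I025.L0
import Vale.Agent.Lib.P154Q4.I025.L1
import Vale.Agent.Lib.P154Q4.I025.L2
import Vale.Agent.Lib.P154Q4.I025.L3
import Vale.Agent.Lib.P154Q4.I025.L4
import Vale.Agent.Lib.P154Q4.I025.L5
import Vale.Agent.Lib.P154Q4.I025.L6
import Vale.Agent.Lib.P154Q4.I025.L7
import Vale.Agent.Lib.P154Q4.I025.L8
import Vale.Agent.Lib.P154Q4.I025.L9
import Vale.Agent.Lib.P154Q4.I025.L10
import Vale.Agent.Lib.P154Q4.I025.L11
import Vale.Agent.Lib.P154Q4.I025.L12
import Vale.Agent.Lib.P154Q4.I025.L13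
import Vale.Agent.Lib.P154Q4.I025.L14
import Vale.Agent.Lib.P154Q4.I025.L15
import Vale.Agent.Lib.P154Q4.I025.L16
import Vale.Agent.Lib.P154Q4.I025.L17
import Vale.Agent.Lib.P154Q4.I025.L18
import Vale.Agent.Lib.P154Q4.I025.L19
import Vale.Agent.Lib.P154Q4.I025.L20
import Vale.Agent.Lib.P154Q4.I025.L21
import Vale.Agent.Lib.P154Q4.I025.L22
import Vale.Agent.Lib.P154Q4.I025.L23
import Vale.Agent.Lib.P154Q4.I025.L24
import Vale.Agent.Lib.P154Q4.I025.L25
import Vale.Agent.Lib.P154Q4.I025.L26
import Vale.Agent.Lib.P154Q4.I025.L27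
import Vale.Agent.Lib.P154Q4.I025.L28
import Vale.Agent.Lib.P154Q4.I025.L29
import Vale.Agent.Lib.P154Q4.I025.L30
import Vale.Agent.Lib.P154Q4.I025.L31
import Vale.Agent.Lib.P154Q4.I025.L32
import Vale.Agent.Lib.P154Q4.I025.L33
import Vale.Agent.Lib.P154Q4.I025.L34
import Vale.Agent.Lib.P154Q4.I025.L35
import Vale.Agent.Lib.P154Q4.I025.L36
import Vale.Agent.Lib.P154Q4.I025.L37
import Vale.Agent.Lib.P154Q4.I025.L38
import Vale.Agent.Lib.P154Q4.I025.L39
import Vale.Agent.Lib.P154Q4.I025.L40
import Vale.Agent.Lib.P154Q4.I025.L41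
import Vale.Agent.Lib.P154Q4.I025.L42
import Vale.Agent.Lib.P154Q4.I025.L43
import Vale.Agent.Lib.P154Q4.I025.L44
import Vale.Agent.Lib.P154Q4.I025.L45
import Vale.Agent.Lib.P154Q4.I025.L46
import Vale.Agent.Lib.P154Q4.I025.L47
import Vale.Agent.Lib.P154Q4.I025.L48
import Vale.Agent.Lib.P154Q4.I025.L49
import Vale.Agent.Lib.P154Q4.I025.L50
import Vale.Agent.Lib.P154Q4.I025.L51
import Vale.Agent.Lib.P154Q4.I025.L52
import Vale.Agent.Lib.P154Q4.I025.L53
import Vale.Agent.Lib.P154Q4.I025.L54
import Vale.Agent.Lib.P154Q4.I025.L55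
import Vale.Agent.Lib.P154Q4.I025.L56
import Vale.Agent.Lib.P154Q4.I025.L57
import Vale.Agent.Lib.P154Q4.I025.L58
import Vale.Agent.Lib.P154Q4.I025.L59
import Vale.Agent.Lib.P154Q4.I025.L60
import Vale.Agent.Lib.P154Q4.I025.L61
import Vale.Agent.Lib.P154Q4.I025.L62
import Vale.Agent.Lib.P154Q4.I025.L63
import Vale.Agent.Lib.P154Q4.I025.L64
import Vale.Agent.Lib.P154Q4.I025.L65
import Vale.Agent.Lib.P154Q4.I025.L66
import Vale.Agent.Lib.P154Q4.I025.L67
import Vale.Agent.Lib.P154Q4.I025.L68
import Vale.Agent.Lib.P154Q4.I025.L69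
import Vale.Agent.Lib.P154Q4.I025.L70
import Vale.Agent.Lib.P154Q4.I025.L71
import Vale.Agent.Lib.P154Q4.I025.L72
import Vale.Agent.Lib.P154Q4.I025.L73
import Vale.Agent.Lib.P154Q4.I025.L74
import Vale.Agent.Lib.P154Q4.I025.L75
import Vale.Agent.Lib.P154Q4.I025.L76
import Vale.Agent.Lib.P154Q4.I025.L77
import Vale.Agent.Lib.P154Q4.I025.L78
import Vale.Agent.Lib.P154Q4.I025.L79
import Vale.Agent.Lib.P154Q4.I025.L80
import Vale.Agent.Lib.P154Q4.I025.L81
import Vale.Agent.Lib.P154Q4.I025.L82
import Vale.Agent.Lib.P154Q4.I025.L83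
import Vale.Agent.Lib.P154Q4.I025.L84
import Vale.Agent.Lib.P154Q4.I025.L85
import Vale.Agent.Lib.P154Q4.I025.L86
import Vale.Agent.Lib.P154Q4.I025.L87
import Vale.Agent.Lib.P154Q4.I025.L88
import Vale.Agent.Lib.P154Q4.I025.L89
import Vale.Agent.Lib.P154Q4.I025.L90
import Vale.Agent.Lib.P154Q4.I025.L91
import Vale.Agent.Lib.P154Q4.I025.L92
import Vale.Agent.Lib.P154Q4.I025.L93
import Vale.Agent.Lib.P154Q4.I025.L94
import Vale.Agent.Lib.P154Q4.I025.L95
import Vale.Agent.Lib.P154Q4.I025.L96
import Vale.Agent.Lib.P154Q4.I025.L97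
import Vale.Agent.Lib.P154Q4.I025.L98
import Vale.Agent.Lib.P154Q4.I025.L99
import Vale.Agent.Lib.P154Q4.I025.L100
import Vale.Agent.Lib.P154Q4.I025.L101
import Vale.Agent.Lib.P154Q4.I025.L102
import Vale.Agent.Lib.P154Q4.I025.L103
import Vale.Agent.Lib.P154Q4.I025.L104
import Vale.Agent.Lib.P154Q4.I025.L105
import Vale.Agent.Lib.P154Q4.I025.L106
import Vale.Agent.Lib.P154Q4.I025.L107
import Vale.Agent.Lib.P154Q4.I025.L108
import Vale.Agent.Lib.P154Q4.I025.L109
import Vale.Agent.Lib.P154Q4.I025.L110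
import Vale.Agent.Lib.P154Q4.I025.L111

/-!
# The tree of bisections
-/

namespace Vale.Agent.Lib.P154Q4.I025

theorem n0 : Good g A1 B4 := good_splitB (e0 := 0) (e1 := 1) (L := B2) (R := B3) (by decide +kernel) l1_g l2_g
theorem n1 : Good g A1 B6 := good_splitB (e0 := 1) (e1 := 2) (L := B4) (R := B5) (by decide +kernel) n0 l3_g
theorem n2 : Good g A1 B8 := good_splitB (e0 := 1) (e1 := 3) (L := B6) (R := B7) (by decide +kernel) n1 l4_g
theorem n3 : Good g A1 B9 := good_splitB (e0 := 0) (e1 := 1) (L := B1) (R := B8) (by decide +kernel) l0_g n2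
theorem n4 : Good g A5 B11 := good_splitA (e0 := 0) (e1 := 1) (L := A3) (R := A4) (by decide +kernel) l6_g l7_g
theorem n5 : Good g A2 B11 := good_splitA (e0 := 0) (e1 := 2) (L := A5) (R := A6) (by decide +kernel) n4 l8_g
theorem n6 : Good g A2 B12 := good_splitB (e0 := 0) (e1 := 2) (L := B10) (R := B11) (by decide +kernel) l5_g n5
theorem n7 : Good g A5 B13 := good_splitA (e0 := 0) (e1 := 1) (L := A3) (R := A4) (by decide +kernel) l9_g l10_g
theorem n8 : Good g A2 B13 := good_splitA (e0 := 0) (e1 := 2) (L := A5) (R := A6) (by decide +kernel) n7 l11_g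
theorem n9 : Good g A2 B14 := good_splitB (e0 := 0) (e1 := 1) (L := B12) (R := B13) (by decide +kernel) n6 n8
theorem n10 : Good g A2 B18 := good_splitB (e0 := 1) (e1 := 2) (L := B16) (R := B17) (by decide +kernel) l13_g l14_g
theorem n11 : Good g A2 B20 := good_splitB (e0 := 2) (e1 := 3) (L := B18) (R := B19) (by decide +kernel) n10 l15_g
theorem n12 : Good g A2 B21 := good_splitB (e0 := 0) (e1 := 2) (L := B15) (R := B20) (by decide +kernel) l12_g n11
theorem n13 : Good g A2 B22 := good_splitB (e0 := 1) (e1 := 3) (L := B14) (R := B21) (by decide +kernel) n9 n12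
theorem n14 : Good g A1 B22 := good_splitA (e0 := 0) (e1 := 3) (L := A2) (R := A7) (by decide +kernel) n13 l16_g
theorem n15 : Good g A1 B23 := good_splitB (e0 := 0) (e1 := 2) (L := B9) (R := B22) (by decide +kernel) n3 n14
theorem n16 : Good g A10 B1 := good_splitA (e0 := 0) (e1 := 1) (L := A8) (R := A9) (by decide +kernel) l17_g l18_g
theorem n17 : Good g A12 B1 := good_splitA (e0 := 1) (e1 := 2) (L := A10) (R := A11) (by decide +kernel) n16 l19_g
theorem n18 : Good g A14 B1 := good_splitA (e0 := 1) (e1 := 3) (L := A12) (R := A13) (by decide +kernel) n17 l20_g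
theorem n19 : Good g A10 B6 := good_splitA (e0 := 0) (e1 := 1) (L := A8) (R := A9) (by decide +kernel) l21_g l22_g
theorem n20 : Good g A12 B6 := good_splitA (e0 := 1) (e1 := 2) (L := A10) (R := A11) (by decide +kernel) n19 l23_g
theorem n21 : Good g A12 B8 := good_splitB (e0 := 1) (e1 := 3) (L := B6) (R := B7) (by decide +kernel) n20 l24_g
theorem n22 : Good g A14 B8 := good_splitA (e0 := 1) (e1 := 3) (L := A12) (R := A13) (by decide +kernel) n21 l25_g
theorem n23 : Good g A14 B9 := good_splitB (e0 := 0) (e1 := 1) (L := B1) (R := B8) (by decide +kernel) n18 n22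
theorem n24 : Good g A12 B14 := good_splitB (e0 := 0) (e1 := 1) (L := B12) (R := B13) (by decide +kernel) l26_g l27_g
theorem n25 : Good g A10 B21 := good_splitA (e0 := 0) (e1 := 1) (L := A8) (R := A9) (by decide +kernel) l28_g l29_g
theorem n26 : Good g A12 B21 := good_splitA (e0 := 1) (e1 := 2) (L := A10) (R := A11) (by decide +kernel) n25 l30_g
theorem n27 : Good g A12 B22 := good_splitB (e0 := 1) (e1 := 3) (L := B14) (R := B21) (by decide +kernel) n24 n26
theorem n28 : Good g A14 B22 := good_splitA (e0 := 1) (e1 := 3) (L := A12) (R := A13) (by decide +kernel) n27 l31_g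
theorem n29 : Good g A14 B23 := good_splitB (e0 := 0) (e1 := 2) (L := B9) (R := B22) (by decide +kernel) n23 n28
theorem n30 : Good g A15 B23 := good_splitA (e0 := 0) (e1 := 1) (L := A1) (R := A14) (by decide +kernel) n15 n29
theorem n31 : Good g A18 B24 := good_splitA (e0 := 0) (e1 := 2) (L := A16) (R := A17) (by decide +kernel) l32_g l33_g
theorem n32 : Good g A20 B24 := good_splitA (e0 := 0) (e1 := 1) (L := A18) (R := A19) (by decide +kernel) n31 l34_g
theorem n33 : Good g A18 B26 := good_splitA (e0 := 0) (e1 := 2) (L := A16) (R := A17) (by decide +kernel) l36_g l37_g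
theorem n34 : Good g A20 B26 := good_splitA (e0 := 0) (e1 := 1) (L := A18) (R := A19) (by decide +kernel) n33 l38_g
theorem n35 : Good g A20 B27 := good_splitB (e0 := 0) (e1 := 1) (L := B25) (R := B26) (by decide +kernel) l35_g n34
theorem n36 : Good g A20 B1 := good_splitB (e0 := 0) (e1 := 3) (L := B24) (R := B27) (by decide +kernel) n32 n35
theorem n37 : Good g A23 B1 := good_splitA (e0 := 0) (e1 := 2) (L := A21) (R := A22) (by decide +kernel) l39_g l40_g
theorem n38 : Good g A24 B1 := good_splitA (e0 := 1) (e1 := 3) (L := A20) (R := A23) (by decide +kernel) n36 n37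
theorem n39 : Good g A20 B8 := good_splitA (e0 := 0) (e1 := 1) (L := A18) (R := A19) (by decide +kernel) l41_g l42_g
theorem n40 : Good g A24 B8 := good_splitA (e0 := 1) (e1 := 3) (L := A20) (R := A23) (by decide +kernel) n39 l43_g
theorem n41 : Good g A24 B9 := good_splitB (e0 := 0) (e1 := 1) (L := B1) (R := B8) (by decide +kernel) n38 n40
theorem n42 : Good g A18 B22 := good_splitA (e0 := 0) (e1 := 2) (L := A16) (R := A17) (by decide +kernel) l44_g l45_g
theorem n43 : Good g A20 B22 := good_splitA (e0 := 0) (e1 := 1) (L := A18) (R := A19) (by decide +kernel) n42 l46_g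
theorem n44 : Good g A23 B22 := good_splitA (e0 := 0) (e1 := 2) (L := A21) (R := A22) (by decide +kernel) l47_g l48_g
theorem n45 : Good g A24 B22 := good_splitA (e0 := 1) (e1 := 3) (L := A20) (R := A23) (by decide +kernel) n43 n44
theorem n46 : Good g A24 B23 := good_splitB (e0 := 0) (e1 := 2) (L := B9) (R := B22) (by decide +kernel) n41 n45
theorem n47 : Good g A25 B23 := good_splitA (e0 := 0) (e1 := 2) (L := A15) (R := A24) (by decide +kernel) n30 n46
theorem n48 : Good g A2 B32 := good_splitB (e0 := 2) (e1 := 3) (L := B30) (R := B31) (by decide +kernel) l51_g l52_g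
theorem n49 : Good g A2 B33 := good_splitB (e0 := 1) (e1 := 2) (L := B29) (R := B32) (by decide +kernel) l50_g n48
theorem n50 : Good g A2 B34 := good_splitB (e0 := 0) (e1 := 2) (L := B28) (R := B33) (by decide +kernel) l49_g n49
theorem n51 : Good g A2 B38 := good_splitB (e0 := 0) (e1 := 2) (L := B36) (R := B37) (by decide +kernel) l54_g l55_g
theorem n52 : Good g A2 B39 := good_splitB (e0 := 1) (e1 := 2) (L := B35) (R := B38) (by decide +kernel) l53_g n51
theorem n53 : Good g A3 B42 := good_splitB (e0 := 0) (e1 := 2) (L := B40) (R := B41) (by decide +kernel) l56_g l57_g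
theorem n54 : Good g A3 B45 := good_splitB (e0 := 0) (e1 := 2) (L := B43) (R := B44) (by decide +kernel) l58_g l59_g
theorem n55 : Good g A3 B47 := good_splitB (e0 := 0) (e1 := 3) (L := B45) (R := B46) (by decide +kernel) n54 l60_g
theorem n56 : Good g A3 B48 := good_splitB (e0 := 2) (e1 := 3) (L := B42) (R := B47) (by decide +kernel) n53 n55
theorem n57 : Good g A4 B48 := good_splitB (e0 := 2) (e1 := 3) (L := B42) (R := B47) (by decide +kernel) l61_g l62_g
theorem n58 : Good g A5 B48 := good_splitA (e0 := 0) (e1 := 1) (L := A3) (R := A4) (by decide +kernel) n56 n57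
theorem n59 : Good g A2 B48 := good_splitA (e0 := 0) (e1 := 2) (L := A5) (R := A6) (by decide +kernel) n58 l63_g
theorem n60 : Good g A2 B49 := good_splitB (e0 := 1) (e1 := 3) (L := B39) (R := B48) (by decide +kernel) n52 n59
theorem n61 : Good g A2 B50 := good_splitB (e0 := 0) (e1 := 3) (L := B34) (R := B49) (by decide +kernel) n50 n60
theorem n62 : Good g A5 B55 := good_splitB (e0 := 2) (e1 := 3) (L := B53) (R := B54) (by decide +kernel) l66_g l67_g
theorem n63 : Good g A5 B56 := good_splitB (e0 := 1) (e1 := 3) (L := B52) (R := B55) (by decide +kernel) l65_g n62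
theorem n64 : Good g A5 B57 := good_splitB (e0 := 0) (e1 := 3) (L := B51) (R := B56) (by decide +kernel) l64_g n63
theorem n65 : Good g A5 B60 := good_splitB (e0 := 0) (e1 := 2) (L := B58) (R := B59) (by decide +kernel) l68_g l69_g
theorem n66 : Good g A3 B64 := good_splitB (e0 := 2) (e1 := 3) (L := B62) (R := B63) (by decide +kernel) l71_g l72_g
theorem n67 : Good g A3 B65 := good_splitB (e0 := 1) (e1 := 3) (L := B61) (R := B64) (by decide +kernel) l70_g n66
theorem n68 : Good g A4 B64 := good_splitB (e0 := 2) (e1 := 3) (L := B62) (R := B63) (by decide +kernel) l74_g l75_g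
theorem n69 : Good g A4 B65 := good_splitB (e0 := 1) (e1 := 3) (L := B61) (R := B64) (by decide +kernel) l73_g n68
theorem n70 : Good g A5 B65 := good_splitA (e0 := 0) (e1 := 1) (L := A3) (R := A4) (by decide +kernel) n67 n69
theorem n71 : Good g A5 B66 := good_splitB (e0 := 0) (e1 := 3) (L := B60) (R := B65) (by decide +kernel) n65 n70
theorem n72 : Good g A5 B67 := good_splitB (e0 := 1) (e1 := 2) (L := B57) (R := B66) (by decide +kernel) n64 n71
theorem n73 : Good g A6 B57 := good_splitB (e0 := 0) (e1 := 3) (L := B51) (R := B56) (by decide +kernel) l76_g l77_g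
theorem n74 : Good g A6 B66 := good_splitB (e0 := 0) (e1 := 3) (L := B60) (R := B65) (by decide +kernel) l78_g l79_g
theorem n75 : Good g A6 B67 := good_splitB (e0 := 1) (e1 := 2) (L := B57) (R := B66) (by decide +kernel) n73 n74
theorem n76 : Good g A2 B67 := good_splitA (e0 := 0) (e1 := 2) (L := A5) (R := A6) (by decide +kernel) n72 n75
theorem n77 : Good g A2 B68 := good_splitB (e0 := 0) (e1 := 1) (L := B50) (R := B67) (by decide +kernel) n61 n76
theorem n78 : Good g A7 B50 := good_splitB (e0 := 0) (e1 := 3) (L := B34) (R := B49) (by decide +kernel) l80_g l81_g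
theorem n79 : Good g A7 B68 := good_splitB (e0 := 0) (e1 := 1) (L := B50) (R := B67) (by decide +kernel) n78 l82_g
theorem n80 : Good g A1 B68 := good_splitA (e0 := 0) (e1 := 3) (L := A2) (R := A7) (by decide +kernel) n77 n79
theorem n81 : Good g A12 B34 := good_splitB (e0 := 0) (e1 := 2) (L := B28) (R := B33) (by decide +kernel) l83_g l84_g
theorem n82 : Good g A12 B49 := good_splitB (e0 := 1) (e1 := 3) (L := B39) (R := B48) (by decide +kernel) l85_g l86_g
theorem n83 : Good g A12 B50 := good_splitB (e0 := 0) (e1 := 3) (L := B34) (R := B49) (by decide +kernel) n81 n82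
theorem n84 : Good g A10 B67 := good_splitA (e0 := 0) (e1 := 1) (L := A8) (R := A9) (by decide +kernel) l87_g l88_g
theorem n85 : Good g A12 B67 := good_splitA (e0 := 1) (e1 := 2) (L := A10) (R := A11) (by decide +kernel) n84 l89_g
theorem n86 : Good g A12 B68 := good_splitB (e0 := 0) (e1 := 1) (L := B50) (R := B67) (by decide +kernel) n83 n85
theorem n87 : Good g A13 B49 := good_splitB (e0 := 1) (e1 := 3) (L := B39) (R := B48) (by decide +kernel) l91_g l92_g
theorem n88 : Good g A13 B50 := good_splitB (e0 := 0) (e1 := 3) (L := B34) (R := B49) (by decide +kernel) l90_g n87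
theorem n89 : Good g A13 B68 := good_splitB (e0 := 0) (e1 := 1) (L := B50) (R := B67) (by decide +kernel) n88 l93_g
theorem n90 : Good g A14 B68 := good_splitA (e0 := 1) (e1 := 3) (L := A12) (R := A13) (by decide +kernel) n86 n89
theorem n91 : Good g A15 B68 := good_splitA (e0 := 0) (e1 := 1) (L := A1) (R := A14) (by decide +kernel) n80 n90
theorem n92 : Good g A20 B34 := good_splitA (e0 := 0) (e1 := 1) (L := A18) (R := A19) (by decide +kernel) l94_g l95_g
theorem n93 : Good g A20 B50 := good_splitB (e0 := 0) (e1 := 3) (L := B34) (R := B49) (by decide +kernel) n92 l96_g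
theorem n94 : Good g A20 B68 := good_splitB (e0 := 0) (e1 := 1) (L := B50) (R := B67) (by decide +kernel) n93 l97_g
theorem n95 : Good g A23 B50 := good_splitB (e0 := 0) (e1 := 3) (L := B34) (R := B49) (by decide +kernel) l98_g l99_g
theorem n96 : Good g A23 B68 := good_splitB (e0 := 0) (e1 := 1) (L := B50) (R := B67) (by decide +kernel) n95 l100_g
theorem n97 : Good g A24 B68 := good_splitA (e0 := 1) (e1 := 3) (L := A20) (R := A23) (by decide +kernel) n94 n96
theorem n98 : Good g A25 B68 := good_splitA (e0 := 0) (e1 := 2) (L := A15) (R := A24) (by decide +kernel) n91 n97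
theorem n99 : Good g A25 B0 := good_splitB (e0 := 0) (e1 := 3) (L := B23) (R := B68) (by decide +kernel) n47 n98
theorem n100 : Good g A28 B1 := good_splitA (e0 := 0) (e1 := 3) (L := A26) (R := A27) (by decide +kernel) l101_g l102_g
theorem n101 : Good g A32 B69 := good_splitA (e0 := 1) (e1 := 3) (L := A30) (R := A31) (by decide +kernel) l104_g l105_g
theorem n102 : Good g A33 B69 := good_splitA (e0 := 0) (e1 := 3) (L := A29) (R := A32) (by decide +kernel) l103_g n101
theorem n103 : Good g A33 B24 := good_splitB (e0 := 0) (e1 := 2) (L := B69) (R := B70) (by decide +kernel) n102 l106_g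
theorem n104 : Good g A35 B24 := good_splitA (e0 := 1) (e1 := 2) (L := A33) (R := A34) (by decide +kernel) n103 l107_g
theorem n105 : Good g A35 B1 := good_splitB (e0 := 0) (e1 := 3) (L := B24) (R := B27) (by decide +kernel) n104 l108_g
theorem n106 : Good g A36 B1 := good_splitA (e0 := 0) (e1 := 1) (L := A28) (R := A35) (by decide +kernel) n100 n105
theorem n107 : Good g A36 B9 := good_splitB (e0 := 0) (e1 := 1) (L := B1) (R := B8) (by decide +kernel) n106 l109_g
theorem n108 : Good g A36 B23 := good_splitB (e0 := 0) (e1 := 2) (L := B9) (R := B22) (by decide +kernel) n107 l110_g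
theorem n109 : Good g A36 B0 := good_splitB (e0 := 0) (e1 := 3) (L := B23) (R := B68) (by decide +kernel) n108 l111_g
theorem n110 : Good g A0 B0 := good_splitA (e0 := 0) (e1 := 3) (L := A25) (R := A36) (by decide +kernel) n99 n109

theorem good_root : Good g (rootB 1 1) (rootB 1 4) := n110

end Vale.Agent.Lib.P154Q4.I025
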